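import Vale.Agent.P047.Disproof.Main

/-!
The level-one Fourier mass of Boolean functions is not `O(√deg)`.
-/

namespace Vale.Agent.Results.P047.Disproof

theorem result : ∃ c : ℝ, 0 < c ∧ ∃ d₀ : ℕ, ∀ d : ℕ, d₀ ≤ d →
    ∃ (n : ℕ) (f : (Fin n → Bool) → ℝ), (∀ x, f x = 1 ∨ f x = -1) ∧
      (∀ S : Finset (Fin n), d < S.card →
        (∑ x : Fin n → Bool, f x * ∏ i ∈ S, (if x i then (1 : ℝ) else -1)) / 2 ^ n = 0) ∧
      (d : ℝ) ^ ((1 : ℝ) / 2 + c) ≤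
        ∑ i : Fin n, (∑ x : Fin n → Bool, f x * (if x i then (1 : ℝ) else -1)) / 2 ^ n := by
  obtain ⟨c, hc, h⟩ := Vale.Agent.P047.Disproof.sqrt_bound_fails
  exact ⟨c, hc, Filter.eventually_atTop.mp h⟩

end Vale.Agent.Results.P047.Disproof
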