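import Vale.Agent.P047.LinBound

/-!
The level-one Fourier mass of a Boolean function is at most `24/25` of its degree.
-/

namespace Vale.Agent.Results.P047.LinearBound

theorem result (n d : ℕ) (f : (Fin n → Bool) → ℝ)
    (hf : ∀ x, f x = 1 ∨ f x = -1) (hd : 2 ≤ d)
    (hdeg : ∀ S : Finset (Fin n), d < S.card →
      (∑ x : Fin n → Bool, f x * ∏ i ∈ S, (if x i then (1 : ℝ) else -1)) / 2 ^ n = 0) :
    ∑ i : Fin n, |(∑ x : Fin n → Bool, f x * (if x i then (1 : ℝ) else -1)) / 2 ^ n|
      ≤ 24 / 25 * (d : ℝ) := by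
  have h := Vale.Agent.P047.LinBound.linear_bound (d := d) hf hd
    (fun S hS => hdeg S hS)
  simpa [Vale.Agent.P047.LinBound.co, Vale.Agent.P047.LinBound.sg] using h

end Vale.Agent.Results.P047.LinearBound
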