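import Vale.Agent.P047.Junta

/-!
Square-root bound for the level-one Fourier weight from one-sided conical junta width.
-/

namespace Vale.Agent.Results.P047.OneSidedJunta

open Finset Real

theorem result (n m : ℕ) (f : (Fin n → Bool) → ℝ) (σ : ℝ)
    (w : Fin m → ℝ) (D : Fin m → Finset (Fin n)) (a : Fin m → Fin n → Bool)
    (hf : ∀ x, f x = 1 ∨ f x = -1) (hσ : σ = 1 ∨ σ = -1) (hw : ∀ j, 0 ≤ w j)
    (hrep : ∀ x, (1 + σ * f x) / 2 = ∑ j, if ∀ i ∈ D j, x i = a j i then w j else 0) :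
    (∀ d : ℕ, 1 ≤ d → (∀ j, (D j).card ≤ d) →
        ∑ i : Fin n, |(∑ x : Fin n → Bool, f x * (if x i then 1 else -1)) / 2 ^ n|
          ≤ 2 * √((d + 1) / exp 1)) ∧
      ∑ i : Fin n, |(∑ x : Fin n → Bool, f x * (if x i then 1 else -1)) / 2 ^ n|
        ≤ √(8 * (exp 1 * (∑ j, w j * (D j).card / 2 ^ (D j).card) + 2)) / exp 1 :=
  Vale.Agent.P047.junta_sqrt_bound hf hσ hw hrep

end Vale.Agent.Results.P047.OneSidedJunta
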